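import Mathlib

/-!
# P062, third formulation: the hexomino Snaky and its allowed copies
-/

namespace Vale.Agent.P062.Third

/-- The hexomino `S` of the problem. -/
def S : Finset (ℤ × ℤ) := {(0, 0), (1, 0), (2, 0), (3, 0), (3, 1), (4, 1)}

/-- An allowed copy of `S`: the image of `S` under `(x, y) ↦ (a + ε x, b + δ y)` or under
`(x, y) ↦ (a + ε y, b + δ x)` with integers `a, b` and signs `ε, δ`, that is, `t + R(S)` with
`t = (a, b)` and `R` one of the eight signed permutation matrices. -/
def IsCopy (C : Finset (ℤ × ℤ)) : Prop :=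
  ∃ a b ε δ : ℤ, (ε = 1 ∨ ε = -1) ∧ (δ = 1 ∨ δ = -1) ∧
    (C = S.image (fun p => (a + ε * p.1, b + δ * p.2)) ∨
      C = S.image (fun p => (a + ε * p.2, b + δ * p.1)))

end Vale.Agent.P062.Third
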