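import Vale.Agent.Lib.P062.Game
import Vale.Agent.Lib.P062.Third.Defs

/-!
# P062, third formulation: a positional strategy
-/

namespace Vale.Agent.P062.Third

open Vale.Agent.P062

theorem copy_of {C : Finset Cell} (h : IsAllowedCopy C) : IsCopy C := by
  obtain ⟨t, R, hR, rfl⟩ := h
  simp only [signedPermutationMatrices, Finset.mem_insert, Finset.mem_singleton] at hR
  rcases hR with rfl | rfl | rfl | rfl | rfl | rfl | rfl | rfl
  · refine ⟨t.1, t.2, 1, 1, by norm_num, by norm_num, Or.inl ?_⟩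
    refine Finset.image_congr fun p _ => ?_
    ext <;> simp [act]
  · refine ⟨t.1, t.2, 1, -1, by norm_num, by norm_num, Or.inl ?_⟩
    refine Finset.image_congr fun p _ => ?_
    ext <;> simp [act]
  · refine ⟨t.1, t.2, -1, 1, by norm_num, by norm_num, Or.inl ?_⟩
    refine Finset.image_congr fun p _ => ?_
    ext <;> simp [act]
  · refine ⟨t.1, t.2, -1, -1, by norm_num, by norm_num, Or.inl ?_⟩
    refine Finset.image_congr fun p _ => ?_
    ext <;> simp [act]
  · refine ⟨t.1, t.2, 1, 1, by norm_num, by norm_num, Or.inr ?_⟩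
    refine Finset.image_congr fun p _ => ?_
    ext <;> simp [act]
  · refine ⟨t.1, t.2, 1, -1, by norm_num, by norm_num, Or.inr ?_⟩
    refine Finset.image_congr fun p _ => ?_
    ext <;> simp [act]
  · refine ⟨t.1, t.2, -1, 1, by norm_num, by norm_num, Or.inr ?_⟩
    refine Finset.image_congr fun p _ => ?_
    ext <;> simp [act]
  · refine ⟨t.1, t.2, -1, -1, by norm_num, by norm_num, Or.inr ?_⟩
    refine Finset.image_congr fun p _ => ?_
    ext <;> simp [act]

open Classical in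
/-- the claim in the position `(M, B)` -/
noncomputable def sg (M B : Finset (ℤ × ℤ)) : ℤ × ℤ :=
  if h : ∃ n, MWins n (M : Set Cell) (B : Set Cell) then (step_exists h).choose
  else (Infinite.exists_notMem_finset (M ∪ B)).choose

theorem sg_legal (M B : Finset (ℤ × ℤ)) : sg M B ∉ M ∪ B := by
  classical
  rw [sg]
  split_ifs with h
  · have h1 := (step_exists h).choose_spec
    rw [Finset.mem_union, not_or]
    exact ⟨fun h2 => h1.1 (Finset.mem_coe.2 h2), fun h2 => h1.2.1 (Finset.mem_coe.2 h2)⟩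
  · exact (Infinite.exists_notMem_finset (M ∪ B)).choose_spec

theorem sg_step {k : ℕ} {M B : Finset (ℤ × ℤ)}
    (h : MWins k (M : Set Cell) (B : Set Cell)) :
    (∃ C, IsCopy C ∧ C ⊆ insert (sg M B) M) ∨
      ∃ j, j + 1 ≤ k ∧ ∀ b, b ∉ insert (sg M B) M → b ∉ B →
        MWins j ((insert (sg M B) M : Finset (ℤ × ℤ)) : Set Cell)
          ((insert b B : Finset (ℤ × ℤ)) : Set Cell) := by
  classical
  have hex : ∃ n, MWins n (M : Set Cell) (B : Set Cell) := ⟨k, h⟩
  have hs : sg M B = (step_exists hex).choose := by rw [sg, dif_pos hex]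
  have h1 := (step_exists hex).choose_spec
  rw [← hs] at h1
  obtain ⟨-, -, h2⟩ := h1
  rcases h2 with ⟨C, hC, hC'⟩ | ⟨j, hj, h3⟩
  · refine Or.inl ⟨C, copy_of hC, fun c hc => ?_⟩
    have h4 := hC' c hc
    rw [← Finset.coe_insert, Finset.mem_coe] at h4
    exact h4
  · refine Or.inr ⟨j, lt_of_lt_of_le hj (Nat.find_le h), fun b hb hb' => ?_⟩
    rw [Finset.coe_insert, Finset.coe_insert]
    refine h3 b (fun h5 => hb ?_) (fun h5 => hb' (Finset.mem_coe.1 h5))
    rw [← Finset.coe_insert, Finset.mem_coe] at h5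
    exact h5

theorem positional (h : ∃ N, MWins N (∅ : Set Cell) ∅) :
    ∃ (σ : Finset (ℤ × ℤ) → Finset (ℤ × ℤ) → ℤ × ℤ) (N : ℕ),
      (∀ M B : Finset (ℤ × ℤ), σ M B ∉ M ∪ B) ∧
      ∀ M B : ℕ → Finset (ℤ × ℤ), M 0 = ∅ → B 0 = ∅ →
        (∀ n, M (n + 1) = insert (σ (M n) (B n)) (M n)) →
        (∀ n, ∃ b, b ∉ M (n + 1) ∪ B n ∧ B (n + 1) = insert b (B n)) →
        ∃ C, IsCopy C ∧ C ⊆ M N := by
  obtain ⟨N, hN⟩ := h
  refine ⟨sg, N, sg_legal, fun M B hM hB hMs hBs => ?_⟩
  have key : ∀ n, (∃ C, IsCopy C ∧ C ⊆ M n) ∨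
      ∃ k, k + n ≤ N ∧ MWins k (M n : Set Cell) (B n : Set Cell) := by
    intro n
    induction n with
    | zero =>
      refine Or.inr ⟨N, le_rfl, ?_⟩
      rw [hM, hB, Finset.coe_empty]
      exact hN
    | succ n ih =>
      rcases ih with ⟨C, hC, hC'⟩ | ⟨k, hk, hw⟩
      · refine Or.inl ⟨C, hC, hC'.trans ?_⟩
        rw [hMs n]
        exact Finset.subset_insert _ _
      · rcases sg_step hw with ⟨C, hC, hC'⟩ | ⟨j, hj, h3⟩
        · exact Or.inl ⟨C, hC, by rw [hMs n]; exact hC'⟩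
        · obtain ⟨b, hb, hb'⟩ := hBs n
          rw [Finset.mem_union, not_or] at hb
          refine Or.inr ⟨j, by omega, ?_⟩
          rw [hb', hMs n]
          refine h3 b ?_ hb.2
          rw [← hMs n]
          exact hb.1
  rcases key N with h1 | ⟨k, hk, hw⟩
  · exact h1
  · have : k = 0 := by omega
    subst this
    exact hw.elim

end Vale.Agent.P062.Third
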